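import Mathlib.Analysis.Normed.Operator.Banach
import Mathlib.Analysis.Normed.Ring.Units
import Mathlib.Analysis.Seminorm
import Mathlib.Analysis.SpecificLimits.Normed

/-! Descent of the spectral parameter: bijectivity of `Λ ι - L` for one `Λ > 0` gives bijectivity of
`l ι - L` for all `l > 0`, from the maximum principle (contraction in a weaker seminorm) and an
interpolation inequality. -/

noncomputable section

namespace Vale.Agent.P272.K.MP

open Filter Topology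

/-- An operator one of whose powers is a strict contraction: `1 - T` is bijective. -/
lemma bijective_one_sub_of_pow {A : Type*} [NormedAddCommGroup A] [NormedSpace ℝ A]
    [CompleteSpace A] (T : A →L[ℝ] A) (k : ℕ) (hk : ‖T ^ k‖ < 1) :
    Function.Bijective (fun f => f - T f) := by
  have hu : IsUnit (1 - T ^ k) := ⟨Units.oneSub (T ^ k) hk, rfl⟩
  have hf : (1 - T) * (∑ i ∈ Finset.range k, T ^ i) = 1 - T ^ k := mul_neg_geom_sum T k
  have hcomm : Commute (1 - T) (∑ i ∈ Finset.range k, T ^ i) := by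
    have h1 : Commute T (∑ i ∈ Finset.range k, T ^ i) :=
      Commute.sum_right _ _ _ fun i _ => Commute.pow_right (Commute.refl T) i
    exact (Commute.one_left _).sub_left h1
  have hu2 : IsUnit (1 - T) := by
    rw [← hf] at hu
    exact (hcomm.isUnit_mul_iff.1 hu).1
  obtain ⟨u, hu3⟩ := hu2
  have hinv1 : ∀ f, (↑u⁻¹ : A →L[ℝ] A) ((1 - T) f) = f := by
    intro f
    rw [← hu3]
    show ((↑u⁻¹ * ↑u : A →L[ℝ] A)) f = f
    rw [Units.inv_mul]; rfl
  have hinv2 : ∀ f, (1 - T) ((↑u⁻¹ : A →L[ℝ] A) f) = f := by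
    intro f
    rw [← hu3]
    show ((↑u * ↑u⁻¹ : A →L[ℝ] A)) f = f
    rw [Units.mul_inv]; rfl
  have he : (fun f => f - T f) = fun f => (1 - T) f := by
    funext f; simp
  rw [he]
  exact ⟨Function.LeftInverse.injective hinv1, fun g => ⟨(↑u⁻¹ : A →L[ℝ] A) g, hinv2 g⟩⟩

/-- If `T` contracts a weaker seminorm `p` by `θ < 1` and `‖T f‖ ≤ a ‖f‖ + M p f` with `a < 1`, then
a power of `T` is a strict contraction in norm. -/
lemma exists_pow_norm_lt_one {A : Type*} [NormedAddCommGroup A] [NormedSpace ℝ A]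
    (T : A →L[ℝ] A) (p : Seminorm ℝ A) (K : ℝ) (hp : ∀ f, p f ≤ K * ‖f‖) (θ a M : ℝ)
    (_hθ0 : 0 ≤ θ) (hθ : θ < 1) (ha0 : 0 ≤ a) (ha : a < 1)
    (hT : ∀ f, p (T f) ≤ θ * p f) (hT2 : ∀ f, ‖T f‖ ≤ a * ‖f‖ + M * p f) :
    ∃ k : ℕ, ‖T ^ k‖ < 1 := by
  set M' : ℝ := max M 0 with hM'
  have hM0 : 0 ≤ M' := le_max_right _ _
  set K' : ℝ := max K 0 with hK'
  have hK0 : 0 ≤ K' := le_max_right _ _
  have hp' : ∀ f, p f ≤ K' * ‖f‖ := fun f =>
    (hp f).trans (mul_le_mul_of_nonneg_right (le_max_left _ _) (norm_nonneg _))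
  have hT2' : ∀ f, ‖T f‖ ≤ a * ‖f‖ + M' * p f := fun f =>
    (hT2 f).trans (by gcongr; exact le_max_left _ _)
  -- the number `ρ` and the weight `B`
  obtain ⟨ρ, hρ1, hρ2, hρ3⟩ : ∃ ρ, a ≤ ρ ∧ θ < ρ ∧ ρ < 1 := by
    refine ⟨max a ((θ + 1) / 2), le_max_left _ _, lt_of_lt_of_le (by linarith) (le_max_right _ _),
      max_lt ha (by linarith)⟩
  set B : ℝ := M' / (ρ - θ) with hB
  have hB0 : 0 ≤ B := div_nonneg hM0 (by linarith)
  have hBe : M' + B * θ = ρ * B := by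
    have : ρ - θ ≠ 0 := by linarith
    have h2 : B * (ρ - θ) = M' := by rw [hB]; field_simp
    linarith
  have hstep : ∀ f, ‖T f‖ + B * p (T f) ≤ ρ * (‖f‖ + B * p f) := by
    intro f
    have h1 := hT2' f
    have h2 := mul_le_mul_of_nonneg_left (hT f) hB0
    have h3 : a * ‖f‖ ≤ ρ * ‖f‖ := mul_le_mul_of_nonneg_right hρ1 (norm_nonneg _)
    calc ‖T f‖ + B * p (T f) ≤ (a * ‖f‖ + M' * p f) + B * (θ * p f) := add_le_add h1 h2
      _ = a * ‖f‖ + (M' + B * θ) * p f := by ring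
      _ ≤ ρ * ‖f‖ + (ρ * B) * p f := by rw [hBe]; linarith
      _ = ρ * (‖f‖ + B * p f) := by ring
  have hρ0 : 0 ≤ ρ := ha0.trans hρ1
  have hiter : ∀ (k : ℕ) f, ‖(T ^ k) f‖ + B * p ((T ^ k) f) ≤ ρ ^ k * (‖f‖ + B * p f) := by
    intro k
    induction k with
    | zero => intro f; simp
    | succ k ih =>
      intro f
      have h1 : (T ^ (k + 1)) f = T ((T ^ k) f) := by
        rw [pow_succ']; rfl
      rw [h1]
      calc _ ≤ ρ * (‖(T ^ k) f‖ + B * p ((T ^ k) f)) := hstep _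
        _ ≤ ρ * (ρ ^ k * (‖f‖ + B * p f)) := mul_le_mul_of_nonneg_left (ih f) hρ0
        _ = ρ ^ (k + 1) * (‖f‖ + B * p f) := by ring
  have hbound : ∀ k : ℕ, ‖T ^ k‖ ≤ ρ ^ k * (1 + B * K') := by
    intro k
    refine ContinuousLinearMap.opNorm_le_bound _ (by positivity) fun f => ?_
    have h1 := hiter k f
    have h2 : 0 ≤ B * p ((T ^ k) f) := mul_nonneg hB0 (apply_nonneg p _)
    have h3 : B * p f ≤ B * (K' * ‖f‖) := mul_le_mul_of_nonneg_left (hp' f) hB0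
    calc ‖(T ^ k) f‖ ≤ ρ ^ k * (‖f‖ + B * p f) := by linarith
      _ ≤ ρ ^ k * (‖f‖ + B * (K' * ‖f‖)) := by gcongr
      _ = ρ ^ k * (1 + B * K') * ‖f‖ := by ring
  have hlim : Tendsto (fun k : ℕ => ρ ^ k * (1 + B * K')) atTop (𝓝 0) := by
    simpa using (tendsto_pow_atTop_nhds_zero_of_lt_one hρ0 hρ3).mul_const (1 + B * K')
  obtain ⟨k, hk⟩ := (hlim.eventually (gt_mem_nhds (by norm_num : (0 : ℝ) < 1))).exists
  exact ⟨k, (hbound k).trans_lt hk⟩

section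
variable {A V : Type*} [NormedAddCommGroup A] [NormedSpace ℝ A] [CompleteSpace A]
  [NormedAddCommGroup V] [NormedSpace ℝ V] [CompleteSpace V]

/-- One step of the descent. -/
lemma descent_step (ι L : V →L[ℝ] A) (p : Seminorm ℝ A) (K : ℝ) (hp : ∀ f, p f ≤ K * ‖f‖)
    (hint : ∀ ε : ℝ, 0 < ε → ∃ C : ℝ, ∀ v, ‖ι v‖ ≤ ε * ‖v‖ + C * p (ι v))
    (Λ : ℝ) (hΛ : 0 < Λ) (hmax : ∀ v, Λ * p (ι v) ≤ p (Λ • ι v - L v))
    (hbij : Function.Bijective (fun v => Λ • ι v - L v)) (l : ℝ) (hl : 0 < l) (hl2 : l < 2 * Λ) :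
    Function.Bijective (fun v => l • ι v - L v) := by
  -- the continuous inverse
  set S : V →L[ℝ] A := Λ • ι - L with hS
  have hSb : Function.Bijective S := by
    have : (S : V → A) = fun v => Λ • ι v - L v := by funext v; simp [hS]
    rw [this]; exact hbij
  set e : V ≃L[ℝ] A := ContinuousLinearEquiv.ofBijective S (LinearMap.ker_eq_bot.2 hSb.1)
    (LinearMap.range_eq_top.2 hSb.2) with he
  have heS : ∀ v, e v = Λ • ι v - L v := by
    intro v
    have : e v = S v := rfl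
    rw [this, hS]; simp
  set R : A →L[ℝ] V := (e.symm : A →L[ℝ] V) with hR
  have heR : ∀ f, Λ • ι (R f) - L (R f) = f := by
    intro f
    rw [← heS]
    exact e.apply_symm_apply f
  set T : A →L[ℝ] A := (Λ - l) • (ι.comp R) with hT
  have hTf : ∀ f, T f = (Λ - l) • ι (R f) := fun f => by simp [hT]
  set θ : ℝ := |Λ - l| / Λ with hθ
  have hθ0 : 0 ≤ θ := div_nonneg (abs_nonneg _) hΛ.le
  have hθ1 : θ < 1 := by
    rw [hθ, div_lt_one hΛ, abs_lt]; constructor <;> linarith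
  have h1 : ∀ f, p (T f) ≤ θ * p f := by
    intro f
    rw [hTf, map_smul_eq_mul, Real.norm_eq_abs]
    have h2 := hmax (R f)
    rw [heR] at h2
    have h3 : p (ι (R f)) ≤ p f / Λ := by rw [le_div_iff₀ hΛ]; linarith
    calc |Λ - l| * p (ι (R f)) ≤ |Λ - l| * (p f / Λ) :=
          mul_le_mul_of_nonneg_left h3 (abs_nonneg _)
      _ = θ * p f := by rw [hθ]; ring
  obtain ⟨C, hC⟩ := hint (1 / (2 * (|Λ - l| * ‖R‖ + 1))) (by positivity)
  have h2 : ∀ f, ‖T f‖ ≤ (1 / 2) * ‖f‖ + (|Λ - l| * (max C 0) / Λ) * p f := by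
    intro f
    rw [hTf, norm_smul, Real.norm_eq_abs]
    have h3 := hC (R f)
    have h4 : ‖R f‖ ≤ ‖R‖ * ‖f‖ := R.le_opNorm f
    have h5 := hmax (R f)
    rw [heR] at h5
    have h6 : p (ι (R f)) ≤ p f / Λ := by rw [le_div_iff₀ hΛ]; linarith
    have h7 : C * p (ι (R f)) ≤ max C 0 * (p f / Λ) :=
      (mul_le_mul_of_nonneg_right (le_max_left _ _) (apply_nonneg p _)).trans
        (mul_le_mul_of_nonneg_left h6 (le_max_right _ _))
    have h8 : |Λ - l| * (1 / (2 * (|Λ - l| * ‖R‖ + 1)) * ‖R f‖) ≤ 1 / 2 * ‖f‖ := by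
      have h9 : |Λ - l| * (1 / (2 * (|Λ - l| * ‖R‖ + 1)) * ‖R f‖) ≤
          |Λ - l| * (1 / (2 * (|Λ - l| * ‖R‖ + 1)) * (‖R‖ * ‖f‖)) := by gcongr
      refine h9.trans ?_
      have h10 : |Λ - l| * (1 / (2 * (|Λ - l| * ‖R‖ + 1)) * (‖R‖ * ‖f‖)) =
          (|Λ - l| * ‖R‖) / (|Λ - l| * ‖R‖ + 1) * (1 / 2 * ‖f‖) := by
        have : |Λ - l| * ‖R‖ + 1 ≠ 0 := by positivity
        field_simp
      rw [h10]
      have h11 : (|Λ - l| * ‖R‖) / (|Λ - l| * ‖R‖ + 1) ≤ 1 := by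
        rw [div_le_one (by positivity)]; linarith
      calc _ ≤ 1 * (1 / 2 * ‖f‖) := by gcongr
        _ = _ := one_mul _
    calc |Λ - l| * ‖ι (R f)‖ ≤ |Λ - l| *
          (1 / (2 * (|Λ - l| * ‖R‖ + 1)) * ‖R f‖ + max C 0 * (p f / Λ)) := by
            refine mul_le_mul_of_nonneg_left (h3.trans ?_) (abs_nonneg _)
            linarith
      _ = |Λ - l| * (1 / (2 * (|Λ - l| * ‖R‖ + 1)) * ‖R f‖) +
          (|Λ - l| * (max C 0) / Λ) * p f := by ring
      _ ≤ _ := by linarith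
  obtain ⟨k, hk⟩ := exists_pow_norm_lt_one T p K hp θ (1 / 2) _ hθ0 hθ1 (by norm_num)
    (by norm_num) h1 h2
  have hb := bijective_one_sub_of_pow T k hk
  have hcomp : (fun v => l • ι v - L v) = (fun f => f - T f) ∘ e := by
    funext v
    show _ = e v - T (e v)
    rw [hTf]
    have : R (e v) = v := e.symm_apply_apply v
    rw [this, heS]
    rw [sub_smul]; abel
  rw [hcomp]
  exact hb.comp e.bijective

/-- **Descent.** `Λ ι - L` bijective for one `Λ > 0` implies `l ι - L` bijective for all `l > 0`. -/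
theorem descent (ι L : V →L[ℝ] A) (p : Seminorm ℝ A) (K : ℝ) (hp : ∀ f, p f ≤ K * ‖f‖)
    (hint : ∀ ε : ℝ, 0 < ε → ∃ C : ℝ, ∀ v, ‖ι v‖ ≤ ε * ‖v‖ + C * p (ι v))
    (hmax : ∀ l : ℝ, 0 < l → ∀ v, l * p (ι v) ≤ p (l • ι v - L v))
    (Λ : ℝ) (hΛ : 0 < Λ) (hbij : Function.Bijective (fun v => Λ • ι v - L v))
    (l : ℝ) (hl : 0 < l) : Function.Bijective (fun v => l • ι v - L v) := by
  have key : ∀ k : ℕ, Function.Bijective (fun v => ((3 / 2 : ℝ) ^ k * Λ) • ι v - L v) := by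
    intro k
    induction k with
    | zero => simpa using hbij
    | succ k ih =>
      have h0 : 0 < (3 / 2 : ℝ) ^ k * Λ := by positivity
      refine descent_step ι L p K hp hint _ h0 (hmax _ h0) ih _ (by positivity) ?_
      rw [pow_succ]; nlinarith
  obtain ⟨k, hk⟩ := pow_unbounded_of_one_lt (l / Λ) (by norm_num : (1 : ℝ) < 3 / 2)
  have h0 : 0 < (3 / 2 : ℝ) ^ k * Λ := by positivity
  refine descent_step ι L p K hp hint _ h0 (hmax _ h0) (key k) l hl ?_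
  rw [div_lt_iff₀ hΛ] at hk
  linarith

end

end Vale.Agent.P272.K.MP
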