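import Vale.Agent.P272.K.MP.Local
import Mathlib.Geometry.Manifold.ChartedSpace

/-! The maximum principle for second order elliptic operators on a compact manifold, in charts. -/

open Filter Topology Module

set_option linter.all false

noncomputable section

namespace Vale.Agent.P272.K.MP

variable {E : Type*} [NormedAddCommGroup E] [NormedSpace ℝ E] [FiniteDimensional ℝ E]
  {X : Type*} [TopologicalSpace X]

/-- At the point `x` the number `Lv` is the value of a (degenerate) elliptic operator without zero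
order term, computed in the chart `e`. -/
def EllAt (e : OpenPartialHomeomorph X E) (v : X → ℝ) (x : X) (Lv : ℝ) : Prop :=
  x ∈ e.source ∧ ContDiffAt ℝ 2 (fun y => v (e.symm y)) (e x) ∧
    ∃ (a : (E →L[ℝ] E →L[ℝ] ℝ) →L[ℝ] ℝ) (b : (E →L[ℝ] ℝ) →L[ℝ] ℝ),
      (∀ ξ : E →L[ℝ] ℝ, 0 ≤ a (ξ.smulRight ξ)) ∧
      Lv = a (fderiv ℝ (fderiv ℝ fun y => v (e.symm y)) (e x)) +
        b (fderiv ℝ (fun y => v (e.symm y)) (e x))

lemma EllAt.continuousAt {e : OpenPartialHomeomorph X E} {v : X → ℝ} {x : X} {Lv : ℝ}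
    (h : EllAt e v x Lv) : ContinuousAt v x := by
  have h1 : ContinuousAt (fun x' => v (e.symm (e x'))) x :=
    ContinuousAt.comp (f := e) (g := fun y => v (e.symm y)) h.2.1.continuousAt
      (e.continuousAt h.1)
  refine h1.congr ?_
  filter_upwards [e.open_source.mem_nhds h.1] with x' hx'
  rw [e.left_inv hx']

/-- a local maximum on `X`, read in a chart -/
lemma isLocalMax_chart {e : OpenPartialHomeomorph X E} {v : X → ℝ} {x : X} (hx : x ∈ e.source)
    (h : IsLocalMax v x) : IsLocalMax (fun y => v (e.symm y)) (e x) := by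
  have h1 : Tendsto e.symm (𝓝 (e x)) (𝓝 x) := by
    have := e.continuousAt_symm (e.map_source hx)
    rwa [ContinuousAt, e.left_inv hx] at this
  have h2 : ∀ᶠ y in 𝓝 (e x), v (e.symm y) ≤ v x := h1.eventually h
  show ∀ᶠ y in 𝓝 (e x), v (e.symm y) ≤ v (e.symm (e x))
  rwa [e.left_inv hx]

lemma isLocalMin_chart {e : OpenPartialHomeomorph X E} {v : X → ℝ} {x : X} (hx : x ∈ e.source)
    (h : IsLocalMin v x) : IsLocalMin (fun y => v (e.symm y)) (e x) := by
  have h1 : Tendsto e.symm (𝓝 (e x)) (𝓝 x) := by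
    have := e.continuousAt_symm (e.map_source hx)
    rwa [ContinuousAt, e.left_inv hx] at this
  have h2 : ∀ᶠ y in 𝓝 (e x), v x ≤ v (e.symm y) := h1.eventually h
  show ∀ᶠ y in 𝓝 (e x), v (e.symm (e x)) ≤ v (e.symm y)
  rwa [e.left_inv hx]

lemma EllAt.nonpos {e : OpenPartialHomeomorph X E} {v : X → ℝ} {x : X} {Lv : ℝ}
    (h : EllAt e v x Lv) (hmax : IsLocalMax v x) : Lv ≤ 0 := by
  obtain ⟨hx, hv, a, b, ha, hL⟩ := h
  rw [hL]
  exact op_nonpos_of_max a ha b (isLocalMax_chart hx hmax) hv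

lemma EllAt.neg {e : OpenPartialHomeomorph X E} {v : X → ℝ} {x : X} {Lv : ℝ}
    (h : EllAt e v x Lv) : EllAt e (fun x => -v x) x (-Lv) := by
  obtain ⟨hx, hv, a, b, ha, hL⟩ := h
  refine ⟨hx, hv.neg, a, b, ha, ?_⟩
  have h1 : fderiv ℝ (fun y => -v (e.symm y)) = fun z => -fderiv ℝ (fun y => v (e.symm y)) z := by
    funext z; exact fderiv_fun_neg
  have h2 : fderiv ℝ (fderiv ℝ (fun y => -v (e.symm y))) (e x) =
      -fderiv ℝ (fderiv ℝ (fun y => v (e.symm y))) (e x) := by
    rw [h1]; exact fderiv_fun_neg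
  have h3 : a (-fderiv ℝ (fderiv ℝ (fun y => v (e.symm y))) (e x)) =
      -a (fderiv ℝ (fderiv ℝ (fun y => v (e.symm y))) (e x)) := map_neg a _
  have h4 : b (-fderiv ℝ (fun y => v (e.symm y)) (e x)) =
      -b (fderiv ℝ (fun y => v (e.symm y)) (e x)) := map_neg b _
  rw [h2, h1, h3, hL]
  show _ = _ + b (-fderiv ℝ (fun y => v (e.symm y)) (e x))
  rw [h4]; ring

/-- **Maximum principle, upper bound.** -/
theorem le_of_op_le [CompactSpace X] {v Lv : X → ℝ} (h : ∀ x, ∃ e, EllAt (E := E) e v x (Lv x))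
    {l M : ℝ} (hM : ∀ x, l * v x - Lv x ≤ M) (hl : 0 < l) : ∀ x, l * v x ≤ M := by
  intro x
  have hc : Continuous v := continuous_iff_continuousAt.2 fun x => by
    obtain ⟨e, he⟩ := h x
    exact he.continuousAt
  have : Nonempty X := ⟨x⟩
  obtain ⟨x0, -, hx0⟩ := isCompact_univ.exists_isMaxOn (Set.univ_nonempty (α := X)) hc.continuousOn
  have hx0' : ∀ y, v y ≤ v x0 := fun y => hx0 (Set.mem_univ y)
  obtain ⟨e, he⟩ := h x0
  have h1 := he.nonpos (Filter.Eventually.of_forall hx0')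
  have h2 := hM x0
  have h3 := mul_le_mul_of_nonneg_left (hx0' x) hl.le
  linarith

/-- **Maximum principle, two-sided bound.** -/
theorem abs_le_of_op_abs_le [CompactSpace X] {v Lv : X → ℝ}
    (h : ∀ x, ∃ e, EllAt (E := E) e v x (Lv x))
    {l M : ℝ} (hM : ∀ x, |l * v x - Lv x| ≤ M) (hl : 0 < l) : ∀ x, l * |v x| ≤ M := by
  intro x
  have h1 := le_of_op_le h (fun x => (abs_le.1 (hM x)).2) hl x
  have h2 := le_of_op_le (v := fun x => -v x) (Lv := fun x => -Lv x) (M := M) (l := l)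
    (fun x => by
      obtain ⟨e, he⟩ := h x
      exact ⟨e, he.neg⟩) (fun x => by
      have := (abs_le.1 (hM x)).1
      linarith) hl x
  rcases abs_cases (v x) with ⟨h3, -⟩ | ⟨h3, -⟩ <;> rw [h3] <;> linarith

/-- **Maximum principle, positivity.** -/
theorem nonneg_of_op_nonneg [CompactSpace X] {v Lv : X → ℝ}
    (h : ∀ x, ∃ e, EllAt (E := E) e v x (Lv x))
    {l : ℝ} (hM : ∀ x, 0 ≤ l * v x - Lv x) (hl : 0 < l) : ∀ x, 0 ≤ v x := by
  intro x
  have h2 := le_of_op_le (v := fun x => -v x) (Lv := fun x => -Lv x) (M := 0) (l := l)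
    (fun x => by
      obtain ⟨e, he⟩ := h x
      exact ⟨e, he.neg⟩) (fun x => by
      have := hM x
      linarith) hl x
  by_contra h3
  push Not at h3
  nlinarith

end Vale.Agent.P272.K.MP
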