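import Mathlib.LinearAlgebra.QuadraticForm.Basic
import Mathlib.Analysis.Calculus.DerivativeTest
import Mathlib.Analysis.Calculus.FDeriv.Symmetric
import Mathlib.Analysis.Calculus.ContDiff.Operations
import Mathlib.Analysis.Calculus.LocalExtr.Basic
import Mathlib.Analysis.Normed.Module.FiniteDimension

/-! Second order conditions at a local maximum, for general elliptic operators on a finite
dimensional space. -/

open Filter Topology Module

noncomputable section

namespace Vale.Agent.P272.K.MP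

section
variable {E : Type*} [NormedAddCommGroup E] [NormedSpace ℝ E]

/-- first order condition -/
lemma fderiv_eq_zero_of_max {v : E → ℝ} {x : E} (h : IsLocalMax v x) : fderiv ℝ v x = 0 :=
  h.fderiv_eq_zero

/-- second order condition in one variable -/
lemma deriv2_nonpos_of_max {g : ℝ → ℝ} {t : ℝ} (h : IsLocalMax g t) (hc : ContinuousAt g t) :
    deriv (deriv g) t ≤ 0 := by
  by_contra hneg
  push Not at hneg
  have hmin : IsLocalMin g t := isLocalMin_of_deriv_deriv_pos hneg h.deriv_eq_zero hc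
  have hconst : g =ᶠ[𝓝 t] fun _ => g t := by
    filter_upwards [h, hmin] with y h1 h2 using le_antisymm h1 h2
  have h2 : deriv g =ᶠ[𝓝 t] fun _ => 0 := by
    have := hconst.deriv
    simpa using this
  have h3 : deriv (deriv g) t = 0 := by
    rw [h2.deriv_eq]; simp
  linarith

/-- second order condition -/
lemma fderiv2_nonpos_of_max {v : E → ℝ} {x : E} (h : IsLocalMax v x) (hv : ContDiffAt ℝ 2 v x)
    (w : E) : fderiv ℝ (fderiv ℝ v) x w w ≤ 0 := by
  have hline : ContinuousAt (fun t : ℝ => x + t • w) 0 := by fun_prop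
  have hx : (fun t : ℝ => x + t • w) 0 = x := by simp
  have hder : ∀ t : ℝ, HasDerivAt (fun t : ℝ => x + t • w) w t := by
    intro t
    simpa using ((hasDerivAt_id t).smul_const w).const_add x
  have hev : ∀ᶠ y in 𝓝 x, ContDiffAt ℝ 2 v y := hv.eventually (by simp)
  have hev2 : ∀ᶠ t in 𝓝 (0 : ℝ), ContDiffAt ℝ 2 v (x + t • w) := by
    have := hline.eventually (by rw [hx]; exact hev)
    exact this
  have h1 : deriv (fun t : ℝ => v (x + t • w)) =ᶠ[𝓝 0] fun t => fderiv ℝ v (x + t • w) w := by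
    filter_upwards [hev2] with t ht
    exact ((ht.differentiableAt (by norm_num)).hasFDerivAt.comp_hasDerivAt t (hder t)).deriv
  have hd1 : DifferentiableAt ℝ (fderiv ℝ v) x :=
    (hv.fderiv_right (m := 1) (by norm_num)).differentiableAt (by norm_num)
  have h2 : deriv (fun t : ℝ => fderiv ℝ v (x + t • w) w) 0 = fderiv ℝ (fderiv ℝ v) x w w := by
    have h3 : HasFDerivAt (fun y => fderiv ℝ v y w) ((fderiv ℝ (fderiv ℝ v) x).flip w) x := by
      have := hd1.hasFDerivAt.clm_apply (hasFDerivAt_const w x)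
      simpa using this
    have h3' : HasFDerivAt (fun y => fderiv ℝ v y w) ((fderiv ℝ (fderiv ℝ v) x).flip w)
        (x + (0 : ℝ) • w) := by simpa using h3
    have h4 := h3'.comp_hasDerivAt (0 : ℝ) (hder 0)
    rw [ContinuousLinearMap.flip_apply] at h4
    exact h4.deriv
  have hmax : IsLocalMax (fun t : ℝ => v (x + t • w)) 0 := by
    have h5 : ∀ᶠ y in 𝓝 x, v y ≤ v x := h
    have := hline.eventually (by rw [hx]; exact h5)
    show ∀ᶠ t in 𝓝 (0 : ℝ), v (x + t • w) ≤ v (x + (0 : ℝ) • w)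
    simpa using this
  have hcont : ContinuousAt (fun t : ℝ => v (x + t • w)) 0 := by
    have : ContinuousAt v ((fun t : ℝ => x + t • w) 0) := by rw [hx]; exact hv.continuousAt
    exact ContinuousAt.comp (f := fun t : ℝ => x + t • w) this hline
  have h6 := deriv2_nonpos_of_max hmax hcont
  rw [h1.deriv_eq, h2] at h6
  exact h6

/-- the second derivative is symmetric -/
lemma fderiv2_symm {v : E → ℝ} {x : E} (hv : ContDiffAt ℝ 2 v x) (w w' : E) :
    fderiv ℝ (fderiv ℝ v) x w w' = fderiv ℝ (fderiv ℝ v) x w' w :=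
  (hv.isSymmSndFDerivAt (by simp)) w w'

end

section
variable {E : Type*} [NormedAddCommGroup E] [NormedSpace ℝ E] [FiniteDimensional ℝ E]

/-- A symmetric bilinear form on a finite-dimensional space is diagonal in a suitable basis. -/
lemma exists_diagonal (B : E →L[ℝ] E →L[ℝ] ℝ) (hB : ∀ w w', B w w' = B w' w) :
    ∃ (f : Fin (finrank ℝ E) → E) (ξ : Fin (finrank ℝ E) → (E →L[ℝ] ℝ)),
      B = ∑ i, B (f i) (f i) • (ξ i).smulRight (ξ i) := by
  let B' : LinearMap.BilinForm ℝ E :=
    LinearMap.mk₂ ℝ (fun w w' => B w w') (fun a b c => by simp) (fun c a b => by simp)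
      (fun a b c => by simp) (fun c a b => by simp)
  have hs : B'.IsSymm := ⟨fun w w' => hB w w'⟩
  have : Invertible (2 : ℝ) := invertibleOfNonzero (by norm_num)
  obtain ⟨b, hb⟩ := LinearMap.BilinForm.exists_orthogonal_basis hs
  refine ⟨b, fun i => (b.coord i).toContinuousLinearMap, ?_⟩
  ext w w'
  have hw : w = ∑ i, b.coord i w • b i := (b.sum_repr w).symm
  have hw' : w' = ∑ i, b.coord i w' • b i := (b.sum_repr w').symm
  have horth : ∀ i j, i ≠ j → B (b i) (b j) = 0 := fun i j hij => hb hij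
  conv_lhs => rw [hw, hw']
  simp only [map_sum, map_smul, sum_apply, smul_apply, smul_eq_mul,
    ContinuousLinearMap.smulRight_apply, LinearMap.coe_toContinuousLinearMap']
  refine Finset.sum_congr rfl fun i _ => ?_
  rw [Finset.sum_eq_single i]
  · ring
  · intro j _ hij
    rw [horth _ _ hij]; ring
  · simp

/-- A positive functional on bilinear forms takes nonpositive values on symmetric negative
semidefinite forms. -/
lemma apply_nonpos_of_nonpos (a : (E →L[ℝ] E →L[ℝ] ℝ) →L[ℝ] ℝ)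
    (ha : ∀ ξ : E →L[ℝ] ℝ, 0 ≤ a (ξ.smulRight ξ)) (B : E →L[ℝ] E →L[ℝ] ℝ)
    (hB : ∀ w w', B w w' = B w' w) (hneg : ∀ w, B w w ≤ 0) : a B ≤ 0 := by
  obtain ⟨f, ξ, h⟩ := exists_diagonal B hB
  rw [h, map_sum]
  refine Finset.sum_nonpos fun i _ => ?_
  rw [map_smul, smul_eq_mul]
  exact mul_nonpos_of_nonpos_of_nonneg (hneg _) (ha _)

/-- **Local maximum principle.** -/
theorem op_nonpos_of_max (a : (E →L[ℝ] E →L[ℝ] ℝ) →L[ℝ] ℝ)
    (ha : ∀ ξ : E →L[ℝ] ℝ, 0 ≤ a (ξ.smulRight ξ)) (b : (E →L[ℝ] ℝ) →L[ℝ] ℝ)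
    {v : E → ℝ} {x : E} (h : IsLocalMax v x) (hv : ContDiffAt ℝ 2 v x) :
    a (fderiv ℝ (fderiv ℝ v) x) + b (fderiv ℝ v x) ≤ 0 := by
  rw [fderiv_eq_zero_of_max h, map_zero, add_zero]
  exact apply_nonpos_of_nonpos a ha _ (fderiv2_symm hv) (fderiv2_nonpos_of_max h hv)

end

end Vale.Agent.P272.K.MP
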